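import Vale.Agent.P281.H156.KD.Step
import Vale.Agent.P281.H167.GM.Core

/-! P281, theorem KD: block CORE. -/

open scoped Manifold ContDiff ComplexOrder Topology
open Complex Set Filter MeasureTheory

set_option linter.all false

noncomputable section

namespace Vale.Agent.P281.H156.KD

open Vale.Agent.P272.K Vale.Agent.P272.K.AMP Vale.Agent.P299.D Vale.Agent.P299 Vale.Agent.P299.H882
open Vale.Agent.P281.H167.SA Vale.Agent.P281.H167.GM Vale.Agent.P281.H713.KD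
open INT (IsDensity intX IsClosedForm)

variable {n M : ℕ} {X : Type} [TopologicalSpace X] [ChartedSpace (Cm n) X]
  [IsManifold 𝓘(ℂ, Cm n) ω X]
  {w χ θ β G g : D.FormM n X} {φ : Chart n X → Cm n → ℝ} {m : ℕ} {ρ : X → ℝ}
  {Dv : Fin M → Set X} {r : Fin M → X → ℝ} {R : Fin M → D.FormM n X} {dl : Fin M → ℝ}

/-- the factor `∏ (r i + ε)^(-K i)` -/
def pK (r : Fin M → X → ℝ) (K : Fin M → ℕ) (ε : ℝ) (x : X) : ℝ := ∏ i, (r i x + ε)⁻¹ ^ K i

omit [TopologicalSpace X] [ChartedSpace (Cm n) X] [IsManifold 𝓘(ℂ, Cm n) ω X] in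
lemma pK_pos (hr0 : ∀ i x, 0 ≤ r i x) {ε : ℝ} (hε : 0 < ε) (K : Fin M → ℕ) (x : X) :
    0 < pK r K ε x :=
  Finset.prod_pos fun i _ => by
    have := hr0 i x
    positivity

omit [IsManifold 𝓘(ℂ, Cm n) ω X] in
lemma smooth_pK (hr : ∀ i, SmoothFn (n := n) (r i)) (hr0 : ∀ i x, 0 ≤ r i x) {ε : ℝ} (hε : 0 < ε)
    (K : Fin M → ℕ) : SmoothFn (n := n) (pK r K ε) := by
  intro e x hx
  have h1 : ∀ i ∈ (Finset.univ : Finset (Fin M)),
      ContDiffAt ℝ ∞ (fun z => (r i (e.symm z) + ε)⁻¹ ^ K i) (e x) := by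
    intro i _
    refine (((hr i e x hx).add contDiffAt_const).inv ?_).pow _
    rw [hx.left_inv]
    have := hr0 i x
    have h : 0 < r i x + ε := by linarith
    exact h.ne'
  exact contDiffAt_prod h1

/-- the Bochner functions, for one metric -/
lemma boch_pair {χ : D.FormM n X} {p μ : ℕ} {K : Fin M → ℕ} {N₀ N₁ : D.FormM n X → X → ℝ}
    (hN : IsDecPair Dv r χ p μ K N₀ N₁) (hr : ∀ i, SmoothFn (n := n) (r i))
    (hr0 : ∀ i x, 0 ≤ r i x) {u : X → ℝ}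
    (hu : ∀ g x, IsKahler g → 0 < N₀ g x → 0 < N₁ g x → u x = Real.log (N₁ g x) - Real.log (N₀ g x))
    (hg : IsKahler g) {ε : ℝ} (hε : 0 < ε) :
    SmoothFn (n := n) (fun x => N₁ g x * pK r K ε x) ∧
    SmoothFn (n := n) (fun x => N₀ g x * pK r K ε x) ∧ (∀ x, 0 ≤ N₁ g x * pK r K ε x) ∧
    (∀ x, 0 ≤ N₀ g x * pK r K ε x) ∧ ∀ x ∈ {x | 0 < N₀ χ x ∧ 0 < N₁ χ x},
      0 < N₁ g x * pK r K ε x ∧ 0 < N₀ g x * pK r K ε x ∧
      u x = Real.log (N₁ g x * pK r K ε x) - Real.log (N₀ g x * pK r K ε x) := by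
  have hp := smooth_pK hr hr0 hε K
  refine ⟨fun e x hx => ((hN.smooth g hg).2 e x hx).mul (hp e x hx),
    fun e x hx => ((hN.smooth g hg).1 e x hx).mul (hp e x hx),
    fun x => mul_nonneg (hN.nonneg g x hg).2 (pK_pos hr0 hε K x).le,
    fun x => mul_nonneg (hN.nonneg g x hg).1 (pK_pos hr0 hε K x).le, ?_⟩
  rintro x ⟨hx0, hx1⟩
  have a0 := (hN.pos g x hg).1.2 hx0
  have a1 := (hN.pos g x hg).2.2 hx1
  have hq := pK_pos hr0 hε K x
  refine ⟨mul_pos a1 hq, mul_pos a0 hq, ?_⟩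
  rw [hu g x hg a0 a1, Real.log_mul a1.ne' hq.ne', Real.log_mul a0.ne' hq.ne']
  ring

/-- **one metric with small total curvature** -/
theorem exists_step [T2Space X] [CompactSpace X] [ConnectedSpace X] (coh : CohPart) (bd : BdPart)
    (mass : MassPartK) (boch : BochPartK)
    (hχ : IsKahler χ) (hφ : IsCanonicalMetric φ) (hm : 0 < m) (hρ : SmoothFn (n := n) ρ)
    (h0 : ∀ x, 0 ≤ ρ x) (hbd : IsBd Dv r R) (hdl : ∀ i, 0 ≤ dl i ∧ dl i < 1) {C : ℝ} (hC0 : 0 ≤ C)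
    (hC : CurvKGe φ m ρ dl R C χ) (hθ : IsClosedForm θ) (hβ : IsClosedForm β)
    (hθ0 : ∀ e x, At e x → (θ e (e x)).PosSemidef) (hβ0 : ∀ e x, At e x → (β e (e x)).PosSemidef)
    {p μ : ℕ} {K : Fin M → ℕ} (hK : ∀ i, (K i : ℝ) ≤ μ * dl i)
    {N₀ N₁ : D.FormM n X → X → ℝ} (hN : IsDecPair Dv r χ p μ K N₀ N₁) {u : X → ℝ}
    (hu : ∀ g x, IsKahler g → 0 < N₀ g x → 0 < N₁ g x → u x = Real.log (N₁ g x) - Real.log (N₀ g x))
    {x₀ : X} (hρ₀ : 0 < ρ x₀) (hx₀ : 0 < N₀ χ x₀) {s t : ℝ} (hs : 0 ≤ s) (ht : 0 < t) {κ : ℝ}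
    (hκ : 0 < κ) :
    ∃ (δ : ℝ) (U τ S S0 : X → ℝ) (c : ℝ), 0 < δ ∧ δ ≤ 1 ∧ SmoothFn (n := n) U ∧
      IsKahler (addH (addF (addF β s θ) t χ) U) ∧
      (∀ e x, At e x → Real.log (addH (addF (addF β s θ) t χ) U e (e x)).det.re =
        φ e (e x) + Lk m ρ δ dl r δ x + c) ∧
      SmoothFn (n := n) S ∧ SmoothFn (n := n) S0 ∧ (∀ x, 0 ≤ S x) ∧ (∀ x, 0 ≤ S0 x) ∧
      (∀ x ∈ {x | 0 < N₀ χ x ∧ 0 < N₁ χ x}, 0 < S x ∧ 0 < S0 x ∧
        u x = Real.log (S x) - Real.log (S0 x)) ∧ Continuous τ ∧ (∀ x, 0 ≤ τ x) ∧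
      BochF (addH (addF (addF β s θ) t χ) U) τ S ∧ BochF (addH (addF (addF β s θ) t χ) U) τ S0 ∧
      J (addH (addF (addF β s θ) t χ) U) τ ≤
        μ * mixX (addF (addF β s θ) t χ) (clsK φ dl R) + κ := by
  have hG : IsKahler (addF (addF β s θ) t χ) := isKahler_G hχ hθ hβ hθ0 hβ0 hs ht
  obtain ⟨hr, ⟨Cb, hCb, hb⟩, -⟩ := bd n M X χ hχ Dv r R hbd
  have hr0 : ∀ i x, 0 ≤ r i x := fun i x => IsBd.nonneg hbd i x
  have hR : ∀ i, IsClosedForm (R i) := hbd.closed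
  obtain ⟨C₂, hC₂, hB⟩ := boch n M X χ hχ φ hφ m hm ρ hρ h0 Dv r R hbd dl (fun i => (hdl i).1) C hC0
    hC p μ K hK N₀ N₁ hN
  set C₃ : ℝ := max C₂ Cb with hC₃
  have hC₃0 : 0 ≤ C₃ := hC₂.trans (le_max_left _ _)
  set SK : ℝ := ∑ i, (K i : ℝ) with hSK
  have hSK0 : 0 ≤ SK := Finset.sum_nonneg fun i _ => Nat.cast_nonneg _
  have hμ0 : (0 : ℝ) ≤ μ := Nat.cast_nonneg μ
  have hti : 0 < t⁻¹ := inv_pos.2 ht
  set A1 : ℝ := μ * C * t⁻¹ + SK with hA1
  have hA10 : 0 ≤ A1 := by positivity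
  set κ₁ : ℝ := κ / (2 * (A1 + 1)) with hκ₁
  have hκ₁p : 0 < κ₁ := by positivity
  have hCG := CurvKGe.toG h0 hC0 hC hθ0 hβ0 hs ht
  have hh : ∃ x, 0 < N₀ χ x + N₁ χ x := ⟨x₀, add_pos_of_pos_of_nonneg hx₀ (hN.nonneg χ x₀ hχ).2⟩
  obtain ⟨a, b, ha, cb, hb0, hb1, δ₁, hδ₁, H1⟩ := mass n M X _ hG φ hφ m hm ρ hρ h0 ⟨x₀, hρ₀⟩ Dv r R
    hbd dl hdl (C / t) hCG (fun x => N₀ χ x + N₁ χ x) hN.hol hh (C₃ / t) κ₁ hκ₁p
  obtain ⟨C', hC', hBa⟩ := hB a ha
  set A2 : ℝ := C' * t⁻¹ * M with hA2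
  have hA20 : 0 ≤ A2 := by positivity
  set κ₂ : ℝ := κ / (2 * (A2 + 1)) with hκ₂
  have hκ₂p : 0 < κ₂ := by positivity
  obtain ⟨_, _, _, _, _, _, δ₂, hδ₂, H2⟩ := mass n M X _ hG φ hφ m hm ρ hρ h0 ⟨x₀, hρ₀⟩ Dv r R
    hbd dl hdl (C / t) hCG (fun x => N₀ χ x + N₁ χ x) hN.hol hh (C₃ / t) κ₂ hκ₂p
  set δ : ℝ := min (min δ₁ δ₂) 1 with hδdef
  have hδ : 0 < δ := lt_min (lt_min hδ₁ hδ₂) one_pos
  have hδ1 : δ ≤ 1 := min_le_right _ _
  have hδδ₁ : δ ≤ δ₁ := (min_le_left _ _).trans (min_le_left _ _)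
  have hδδ₂ : δ ≤ δ₂ := (min_le_left _ _).trans (min_le_right _ _)
  have hcan := isCanonical_phiK (m := m) (dl := dl) hφ hρ h0 hδ hδ hr hr0
  obtain ⟨U, c, hU, hg, hlg⟩ := exists_yauC H882.yau hG hcan
  obtain ⟨E1, -, E3⟩ := H1 δ δ hδ hδδ₁ hδ hδδ₁ U c hU hg hlg
  obtain ⟨-, E2, -⟩ := H2 δ δ hδ hδδ₂ hδ hδδ₂ U c hU hg hlg
  have hBB : ∀ N : D.FormM n X → X → ℝ, N = N₀ ∨ N = N₁ →
      BochF (addH (addF (addF β s θ) t χ) U)
        (tauK χ (addH (addF (addF β s θ) t χ) U) φ m ρ dl r R C C' C₃ μ K b δ δ)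
        (fun x => N (addH (addF (addF β s θ) t χ) U) x * pK r K δ x) := by
    intro N hNN
    have h1 := hBa b cb hb0 hb1 δ δ hδ hδ hδ1 _ c hg hlg N hNN
    exact BochF.mono h1 fun x => tauK_mono (C := C) (C' := C') hg.toIsHermitian hχ
      (le_max_left C₂ Cb) hb0 μ K δ δ x
  have hd : ∀ i x, (dF (r i) (R i) δ (chartAt (Cm n) x) (chartAt (Cm n) x x) +
      (C₃ : ℂ) • χ (chartAt (Cm n) x) (chartAt (Cm n) x x)).PosSemidef := by
    intro i x
    have hx := at_chartAt (n := n) x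
    have h1 := ((hb i _ x hx).2.2 δ hδ hδ1).1
    have h2 : 0 ≤ C₃ - Cb * (δ / (r i x + δ)) := by
      have h3 : δ / (r i x + δ) ≤ 1 := by
        have := hr0 i x
        rw [div_le_one (by linarith)]; linarith
      have h4 : Cb * (δ / (r i x + δ)) ≤ Cb * 1 := mul_le_mul_of_nonneg_left h3 hCb
      have h5 : Cb ≤ C₃ := le_max_right _ _
      linarith
    have h3 := h1.add (psd_real_smul ((hχ.posDef _ x hx).posSemidef) h2)
    have e1 : dF (r i) (R i) δ (chartAt (Cm n) x) (chartAt (Cm n) x x) +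
        ((Cb * (δ / (r i x + δ)) : ℝ) : ℂ) • χ (chartAt (Cm n) x) (chartAt (Cm n) x x) +
        ((C₃ - Cb * (δ / (r i x + δ)) : ℝ) : ℂ) • χ (chartAt (Cm n) x) (chartAt (Cm n) x x) =
        dF (r i) (R i) δ (chartAt (Cm n) x) (chartAt (Cm n) x x) +
          (C₃ : ℂ) • χ (chartAt (Cm n) x) (chartAt (Cm n) x x) := by
      rw [add_assoc, ← add_smul]
      congr 2
      push_cast
      ring
    rw [← e1]
    exact h3
  obtain ⟨p1, p2, p3, p4, p5⟩ := boch_pair hN hr hr0 hu hg hδ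
  have hJ := J_tauK_le (m := m) (dl := dl) coh hχ hφ hρ h0 hr hr0 hR hθ hβ hθ0 hβ0 hs ht hδ hδ hU hg
    cb hb0 (C := C) (C' := C') (C₂ := C₃) (κ₁ := κ₁) (κ₂ := κ₂) hC0 hC' hC₃0 μ K E1 E2
    (fun i hi => E3 i (hN.ne i hi))
  refine ⟨δ, U, _, _, _, c, hδ, hδ1, hU, hg, fun e x hx => ?_, p1, p2, p3, p4, p5,
    cont_tauK hg.toIsHermitian hχ hφ hρ h0 hr hr0 hR hδ hδ cb C C' C₃ μ K,
    tauK_nonneg hg.toIsHermitian hχ hφ hρ h0 hr0 hR hδ hδ hC hC' hd hb0 μ K,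
    hBB N₁ (Or.inr rfl), hBB N₀ (Or.inl rfl), hJ.trans ?_⟩
  · rw [hlg e x hx, phiK_eq, hx.left_inv]
  · have g1 : A1 * κ₁ ≤ κ / 2 := by
      rw [hκ₁]
      have : A1 * (κ / (2 * (A1 + 1))) = κ / 2 * (A1 / (A1 + 1)) := by
        field_simp
      rw [this]
      have h3 : A1 / (A1 + 1) ≤ 1 := by
        rw [div_le_one (by positivity)]; linarith
      calc κ / 2 * (A1 / (A1 + 1)) ≤ κ / 2 * 1 := mul_le_mul_of_nonneg_left h3 (by positivity)
        _ = κ / 2 := mul_one _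
    have g2 : A2 * κ₂ ≤ κ / 2 := by
      rw [hκ₂]
      have : A2 * (κ / (2 * (A2 + 1))) = κ / 2 * (A2 / (A2 + 1)) := by
        field_simp
      rw [this]
      have h3 : A2 / (A2 + 1) ≤ 1 := by
        rw [div_le_one (by positivity)]; linarith
      calc κ / 2 * (A2 / (A2 + 1)) ≤ κ / 2 * 1 := mul_le_mul_of_nonneg_left h3 (by positivity)
        _ = κ / 2 := mul_one _
    have g3 : A1 * κ₁ = μ * C * t⁻¹ * κ₁ + SK * κ₁ := by rw [hA1]; ring
    have g4 : A2 * κ₂ = C' * t⁻¹ * (M * κ₂) := by rw [hA2]; ring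
    rw [g3] at g1
    rw [g4] at g2
    linarith

/-- uniform bound of the volumes -/
lemma vol_bound [T2Space X] [CompactSpace X] [ConnectedSpace X] (int : IntPart) (hw : IsKahler w)
    (hρ : SmoothFn (n := n) ρ) (h0 : ∀ x, 0 ≤ ρ x) (hbd : IsBd Dv r R)
    (hr : ∀ i, SmoothFn (n := n) (r i))
    (hdl : ∀ i, 0 ≤ dl i ∧ dl i < 1) (m : ℕ) [Nonempty X] :
    ∃ V1 : ℝ, 0 ≤ V1 ∧ ∀ δ : ℝ, 0 < δ → δ ≤ 1 →
      J w (fun x => Real.exp (Lk m ρ δ dl r δ x)) ≤ V1 := by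
  have hr0 : ∀ i x, 0 ≤ r i x := fun i x => IsBd.nonneg hbd i x
  have hwH := hw.toIsHermitian
  -- a common exponent
  obtain ⟨a, ha0, ha1, had⟩ : ∃ a : ℝ, 0 ≤ a ∧ a < 1 ∧ ∀ i, dl i ≤ a := by
    rcases isEmpty_or_nonempty (Fin M) with h | h
    · exact ⟨0, le_rfl, one_pos, fun i => h.elim i⟩
    · obtain ⟨j, hj⟩ := Finite.exists_max dl
      exact ⟨dl j, (hdl j).1, (hdl j).2, hj⟩
  obtain ⟨K0, hK0⟩ := int n M X w hw Dv r R hbd a ha1
  have cρ := sm_continuous hρ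
  -- the bound of `ρ`
  have c1 : Continuous fun x => Real.exp ((m : ℝ)⁻¹ * Real.log (ρ x + 1)) :=
    Real.continuous_exp.comp (continuous_const.mul ((cρ.add continuous_const).log fun x => by
      have := h0 x
      have h : 0 < ρ x + 1 := by linarith
      exact h.ne'))
  obtain ⟨y, -, hy⟩ := isCompact_univ.exists_isMaxOn (Set.univ_nonempty (α := X)) c1.continuousOn
  set R1 : ℝ := Real.exp ((m : ℝ)⁻¹ * Real.log (ρ y + 1)) with hR1
  have hR1p : 0 < R1 := Real.exp_pos _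
  have hminv : 0 ≤ (m : ℝ)⁻¹ := by positivity
  have hJ0 : ∀ δ : ℝ, 0 < δ → 0 ≤ J w (fun x => ∏ i, (r i x + δ) ^ (-a)) := fun δ hδ =>
    J_nonneg hwH fun x => Finset.prod_nonneg fun i _ => by
      have := hr0 i x
      positivity
  refine ⟨R1 * 2 ^ M * K0, ?_, fun δ hδ hδ1 => ?_⟩
  · have := (hJ0 1 one_pos).trans (hK0 1 one_pos le_rfl)
    positivity
  · have cL : Continuous (Lk m ρ δ dl r δ) := sm_continuous (smooth_Lk (m := m) (dl := dl) hρ h0 hδ hδ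
      hr hr0)
    have cP : Continuous fun x => ∏ i, (r i x + δ) ^ (-a) := by
      refine continuous_finsetProd _ fun i _ => ?_
      refine Continuous.rpow_const ((sm_continuous (hr i)).add continuous_const) fun x => Or.inl ?_
      have := hr0 i x
      have h : 0 < r i x + δ := by linarith
      exact h.ne'
    have hpt : ∀ x, Real.exp (Lk m ρ δ dl r δ x) ≤ R1 * 2 ^ M * ∏ i, (r i x + δ) ^ (-a) := by
      intro x
      have e1 : Real.exp (Lk m ρ δ dl r δ x) = Real.exp ((m : ℝ)⁻¹ * Real.log (ρ x + δ)) *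
          ∏ i, (r i x + δ) ^ (-dl i) := by
        have e2 : ∏ i, (r i x + δ) ^ (-dl i) =
            Real.exp (∑ i, -(dl i * Real.log (r i x + δ))) := by
          rw [Real.exp_sum]
          refine Finset.prod_congr rfl fun i _ => ?_
          have := hr0 i x
          rw [Real.rpow_def_of_pos (by linarith)]
          congr 1
          ring
        rw [e2, ← Real.exp_add, Lk, Finset.sum_neg_distrib]
        rfl
      rw [e1, mul_assoc]
      refine mul_le_mul ?_ ?_ (Finset.prod_nonneg fun i _ => by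
        have := hr0 i x
        positivity) hR1p.le
      · refine le_trans ?_ (hy (Set.mem_univ x))
        refine Real.exp_le_exp.2 (mul_le_mul_of_nonneg_left ?_ hminv)
        have := h0 x
        exact Real.log_le_log (by linarith) (by linarith)
      · have e3 : (2 : ℝ) ^ M * ∏ i, (r i x + δ) ^ (-a) = ∏ i : Fin M, 2 * (r i x + δ) ^ (-a) := by
          rw [Finset.prod_mul_distrib]
          simp
        rw [e3]
        refine Finset.prod_le_prod (fun i _ => by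
          have := hr0 i x
          positivity) fun i _ => ?_
        have hp : 0 < r i x + δ := by have := hr0 i x; linarith
        have hle : r i x + δ ≤ 2 := by have := hbd.le_one i x; linarith
        have e4 : (r i x + δ) ^ (-dl i) = (r i x + δ) ^ (a - dl i) * (r i x + δ) ^ (-a) := by
          rw [← Real.rpow_add hp]
          congr 1
          ring
        rw [e4]
        refine mul_le_mul_of_nonneg_right ?_ (by positivity)
        have h5 : 0 ≤ a - dl i := sub_nonneg.2 (had i)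
        have h6 : a - dl i ≤ 1 := by have := (hdl i).1; linarith
        calc (r i x + δ) ^ (a - dl i) ≤ 2 ^ (a - dl i) := Real.rpow_le_rpow hp.le hle h5
          _ ≤ 2 ^ (1 : ℝ) := Real.rpow_le_rpow_of_exponent_le one_le_two h6
          _ = 2 := Real.rpow_one 2
    have cE : Continuous fun x => Real.exp (Lk m ρ δ dl r δ x) := Real.continuous_exp.comp cL
    have cQ : Continuous fun x => R1 * 2 ^ M * ∏ i, (r i x + δ) ^ (-a) := continuous_const.mul cP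
    refine (J_mono hwH cE cQ hpt).trans ?_
    rw [J_const_mul]
    exact mul_le_mul_of_nonneg_left (hK0 δ hδ hδ1) (by positivity)

/-- **Block KD-CORE** -/
theorem corePartK (coh : CohPart) (eps : EpsPart) (bd : BdPart) (int : IntPart) (mass : MassPartK)
    (boch : BochPartK) : CorePartK := by
  intro n M X _ _ _ _ _ _ χ hχ φ hφ m hm ρ hρ h0 Dv r R hbd dl hdl C hC θ β hθ hβ hθ0 hβ0 ν C₁ hgr p
    μ K hK N₀ N₁ hN u hu e x hx hx0 hx1 hρx hrx hP hrk v hv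
  by_contra hne
  haveI : Nonempty X := ⟨x⟩
  have hχ0 : ∀ e x, At e x → (χ e (e x)).PosSemidef := fun e x hx => (hχ.posDef e x hx).posSemidef
  have hC' : CurvKGe φ m ρ dl R (max C 0) χ := CurvKGe.mono h0 hC (le_max_left _ _) hχ0
  have hCp : 0 ≤ max C 0 := le_max_right _ _
  obtain ⟨U0, c0, hU0, hw, hlw⟩ := exists_yauC H882.yau hχ hφ
  set w := addH χ U0 with hwdef
  have hwH := hw.toIsHermitian
  obtain ⟨hr, -, -⟩ := bd n M X χ hχ Dv r R hbd
  have hr0 : ∀ i x, 0 ≤ r i x := fun i x => IsBd.nonneg hbd i x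
  -- the open set
  set V : Set X := {x | 0 < N₀ χ x ∧ 0 < N₁ χ x} with hVdef
  have c0' := sm_continuous (hN.smooth χ hχ).1
  have c1' := sm_continuous (hN.smooth χ hχ).2
  have hV : IsOpen V := (isOpen_lt continuous_const c0').inter (isOpen_lt continuous_const c1')
  have hxV : x ∈ V := ⟨hx0, hx1⟩
  -- smoothness of `u` on `V`
  have hS12 : ∀ x ∈ V, 0 < N₁ χ x ∧ 0 < N₀ χ x ∧ u x = Real.log (N₁ χ x) - Real.log (N₀ χ x) :=
    fun x hx => ⟨hx.2, hx.1, hu χ x hχ hx.1 hx.2⟩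
  have husm : ∀ (e' : Chart n X) y, At e' y → y ∈ V →
      ContDiffAt ℝ ∞ (fun z => u (e'.symm z)) (e' y) := by
    intro e' y hy hyV
    have h1 : ContDiffAt ℝ ∞ (fun z => Real.log (N₁ χ (e'.symm z)) - Real.log (N₀ χ (e'.symm z)))
        (e' y) := by
      refine (((hN.smooth χ hχ).2 e' y hy).log ?_).sub (((hN.smooth χ hχ).1 e' y hy).log ?_)
      · rw [hy.left_inv]; exact (hS12 y hyV).1.ne'
      · rw [hy.left_inv]; exact (hS12 y hyV).2.1.ne'
    refine h1.congr_of_eventuallyEq ?_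
    have h2 : ∀ᶠ z in 𝓝 (e' y), e'.symm z ∈ V := by
      have : ContinuousAt e'.symm (e' y) := e'.continuousAt_symm (e'.map_source hy.2)
      refine this.eventually_mem ?_
      rw [hy.left_inv]; exact hV.mem_nhds hyV
    filter_upwards [h2] with z hz
    exact (hS12 _ hz).2.2
  have hucont : ContinuousOn u V := by
    intro y hy
    have hy' := at_chartAt (n := n) y
    have h1 := (husm _ y hy' hy).continuousAt
    have h2 : ContinuousAt (fun y' => u ((chartAt (Cm n) y).symm (chartAt (Cm n) y y'))) y :=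
      h1.comp (f := chartAt (Cm n) y) ((chartAt (Cm n) y).continuousAt hy'.2)
    refine (h2.congr ?_).continuousWithinAt
    filter_upwards [(chartAt (Cm n) y).open_source.mem_nhds hy'.2] with y' hy''
    rw [(chartAt (Cm n) y).left_inv hy'']
  have hxic : ∀ i, ContinuousAt (fun z => xi u e z i) (e x) := fun i =>
    (contDiffAt_dz (m := 0) (r := 1) ((ofReal_contDiffAt (husm e x hx hxV)).of_le
      (by norm_cast)) (by simp)).continuousAt
  obtain ⟨d0, hd0, hlow⟩ := lower_boundL hθ hβ hθ0 hβ0 hχ hw hx hP hxic v hv hne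
  rw [hrk] at hlow
  have cρ := sm_continuous hρ
  have hρn : ∀ᶠ y in 𝓝 x, ρ x / 2 < ρ y :=
    cρ.continuousAt.eventually (lt_mem_nhds (half_lt_self hρx))
  -- the neighbourhood `N` of `x`
  obtain ⟨N, hNN, hNo, hxN⟩ := mem_nhds_iff.1 ((hlow.and (hV.mem_nhds hxV)).and hρn)
  obtain ⟨η, hηs, hη1, hη01⟩ := exists_tsupport_one_of_isOpen_isClosed hNo
    isClosed_closure.isCompact isClosed_singleton (Set.singleton_subset_iff.2 hxN)
  have hηx : η x = 1 := hη1 rfl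
  have hKc : IsCompact (tsupport η) := (isClosed_tsupport η).isCompact
  have hKV : ∀ y ∈ tsupport η, y ∈ V := fun y hy => (hNN (hηs hy)).1.2
  have hxK : x ∈ tsupport η := subset_tsupport _ (by simp [hηx])
  obtain ⟨Cu, hCu⟩ := hKc.exists_bound_of_continuousOn (hucont.mono hKV)
  have hηc : Continuous fun y => η y := η.continuous
  have hIη : 0 < J w (fun y => η y) :=
    J_pos_of hwH hηc (fun y => (hη01 y).1) (x := x) (by rw [hηx]; exact one_pos)
  set H := J w (fun y => η y) with hH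
  set r0 := ρ x / 2 with hr0def
  have hr0p : 0 < r0 := half_pos hρx
  obtain ⟨V1, hV10, hV1⟩ := vol_bound int hw hρ h0 hbd hr hdl m
  set l0 : ℝ := (m : ℝ)⁻¹ * Real.log r0 - ∑ i, dl i * Real.log 2 with hl0
  set K1 : ℝ := (Real.exp l0)⁻¹ * (n * V1) * (Real.pi * (1 + 1)) with hK1
  have hK10 : 0 ≤ K1 := by
    have := Real.pi_pos
    positivity
  have hminv : 0 ≤ (m : ℝ)⁻¹ := by positivity
  -- the estimate for `t > 0`
  have step1 : ∀ s t : ℝ, 0 < s → 0 < t →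
      d0 * s ^ ν / (1 + Cu ^ 2) * H ^ 2 ≤
        K1 * μ * mixX (addF (addF β s θ) t χ) (clsK φ dl R) := by
    intro s t hs ht
    refine le_of_forall_pos_le_add fun κ hκ => ?_
    set κ' : ℝ := κ / (K1 + 1) with hκ'
    have hκ'p : 0 < κ' := by positivity
    have hG : IsKahler (addF (addF β s θ) t χ) := isKahler_G hχ hθ hβ hθ0 hβ0 hs.le ht
    obtain ⟨δ, U, τ, S, S0, c, hδ, hδ1, hU, hg, hlg, hSs, hS0s, hSn, hS0n, hSV, cτ, hτ0, hB, hB0,
      hJ⟩ := exists_step coh bd mass boch hχ hφ hm hρ h0 hbd hdl hCp hC' hθ hβ hθ0 hβ0 hK hN hu hρx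
        hx0 hs.le ht hκ'p
    have cL : Continuous (Lk m ρ δ dl r δ) := sm_continuous (smooth_Lk (m := m) (dl := dl) hρ h0 hδ
      hδ hr hr0)
    have hmain := main_estL hG hw cL hlw hV hU hg hlg hSs hS0s hSn hS0n hSV cτ hτ0 hB hB0
      (e := e) hηc hη01 hxK (κ := d0 * s ^ ν) (l0 := l0) (Cu := Cu) (V1 := V1) (by positivity)
      (hV1 δ hδ hδ1) (fun y hy => by
        obtain ⟨⟨⟨h1, h2⟩, h3⟩, h4⟩ := hNN (hηs hy)
        refine ⟨h1, h3, ?_, ?_, h2 s t hs.le ht.le⟩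
        · rw [hl0, Lk]
          refine sub_le_sub ?_ (Finset.sum_le_sum fun i _ => ?_)
          · exact mul_le_mul_of_nonneg_left (Real.log_le_log hr0p (by linarith)) hminv
          · refine mul_le_mul_of_nonneg_left (Real.log_le_log ?_ ?_) (hdl i).1
            · have := hr0 i y; linarith
            · have := hbd.le_one i y; linarith
        · have := hCu y hy
          rwa [Real.norm_eq_abs] at this)
    have h5 : K1 * κ' ≤ κ := by
      rw [hκ']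
      have : K1 * (κ / (K1 + 1)) = κ * (K1 / (K1 + 1)) := by ring
      rw [this]
      have h3 : K1 / (K1 + 1) ≤ 1 := by
        rw [div_le_one (by positivity)]; linarith
      calc κ * (K1 / (K1 + 1)) ≤ κ * 1 := mul_le_mul_of_nonneg_left h3 hκ.le
        _ = κ := mul_one _
    calc d0 * s ^ ν / (1 + Cu ^ 2) * H ^ 2 ≤ _ := hmain
      _ = K1 * J (addH (addF (addF β s θ) t χ) U) τ := by rw [hK1]; ring
      _ ≤ K1 * (μ * mixX (addF (addF β s θ) t χ) (clsK φ dl R) + κ') :=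
          mul_le_mul_of_nonneg_left hJ hK10
      _ ≤ K1 * μ * mixX (addF (addF β s θ) t χ) (clsK φ dl R) + κ := by
          rw [mul_add, ← mul_assoc]; linarith
  -- `t → 0`
  have step2 : ∀ s : ℝ, 0 < s →
      d0 * s ^ ν / (1 + Cu ^ 2) * H ^ 2 ≤ K1 * μ * mixX (addF β s θ) (clsK φ dl R) := by
    intro s hs
    have hlim := (eps n X (addF β s θ) (clsK φ dl R) χ (isClosed_addF hβ hθ s)
      (isClosed_clsK hφ hbd.closed) (INT.IsKahler.isClosedForm hχ)).const_mul (K1 * μ)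
    refine ge_of_tendsto hlim ?_
    filter_upwards [self_mem_nhdsWithin] with ε hε using step1 s ε hs hε
  -- contradiction
  have hK1μ : 0 ≤ K1 * μ := by positivity
  set a0 : ℝ := d0 / (1 + Cu ^ 2) * H ^ 2 with ha0
  have ha0p : 0 < a0 := by positivity
  obtain ⟨s, hs1, hs2⟩ := (hgr.and_eventually (eventually_gt_atTop
    (max 1 (K1 * μ * C₁ / a0)))).exists
  have hsp : 0 < s := lt_of_lt_of_le one_pos ((le_max_left _ _).trans hs2.le)
  have h1 := step2 s hsp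
  have h2 := h1.trans (mul_le_mul_of_nonneg_left hs1 hK1μ)
  have hsν : 0 < s ^ ν := pow_pos hsp ν
  have h3 : a0 * s ^ ν ≤ K1 * μ * C₁ / s * s ^ ν := by
    calc a0 * s ^ ν = d0 * s ^ ν / (1 + Cu ^ 2) * H ^ 2 := by rw [ha0]; ring
      _ ≤ K1 * μ * (C₁ * s ^ ν / s) := h2
      _ = K1 * μ * C₁ / s * s ^ ν := by ring
  have h4 := le_of_mul_le_mul_right h3 hsν
  rw [le_div_iff₀ hsp] at h4
  have h5 : K1 * μ * C₁ / a0 < s := (le_max_right _ _).trans_lt hs2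
  rw [div_lt_iff₀ ha0p] at h5
  linarith

end Vale.Agent.P281.H156.KD
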