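import Vale.Agent.P281.H156.KD.Tau
import Vale.Agent.P281.H167.GM.Est

/-! P281, theorem KD: one metric with a small total curvature. -/

open scoped Manifold ContDiff ComplexOrder Topology
open Complex Set Filter MeasureTheory

set_option linter.all false

noncomputable section

namespace Vale.Agent.P281.H156.KD

open Vale.Agent.P272.K Vale.Agent.P272.K.AMP Vale.Agent.P299.D Vale.Agent.P299 Vale.Agent.P299.H882
open Vale.Agent.P281.H167.SA Vale.Agent.P281.H167.GM Vale.Agent.P281.H713.KD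
open INT (IsDensity intX IsClosedForm)

variable {n M : ℕ} {X : Type} [TopologicalSpace X] [ChartedSpace (Cm n) X]
  [IsManifold 𝓘(ℂ, Cm n) ω X]
  {w χ θ β G g : D.FormM n X} {φ : Chart n X → Cm n → ℝ} {m : ℕ} {ρ : X → ℝ}
  {Dv : Fin M → Set X} {r : Fin M → X → ℝ} {R : Fin M → D.FormM n X} {dl : Fin M → ℝ}

/-- the function `τ` of block BK -/
def tauK (χ g : D.FormM n X) (φ : Chart n X → Cm n → ℝ) (m : ℕ) (ρ : X → ℝ) (dl : Fin M → ℝ)
    (r : Fin M → X → ℝ) (R : Fin M → D.FormM n X) (C C' C₂ : ℝ) (μ : ℕ) (K : Fin M → ℕ)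
    (b : X → ℝ) (δ ε : ℝ) (x : X) : ℝ :=
  μ * (trX g (curvK φ m ρ δ dl R) x + C * (δ / (ρ x + δ)) * trX g χ x) +
    C' * ∑ i, ε / (r i x + ε) * trX g χ x +
    b x * ∑ i, if K i = 0 then 0 else K i * (trX g (dF (r i) (R i) ε) x + C₂ * trX g χ x)

lemma J_sum [T2Space X] [CompactSpace X] (hg : IsHermitian g) {ι : Type} (s : Finset ι)
    (f : ι → X → ℝ) (hc : ∀ i, Continuous (f i)) :
    J g (fun x => ∑ i ∈ s, f i x) = ∑ i ∈ s, J g (f i) := by
  classical
  induction s using Finset.induction_on with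
  | empty =>
    simp only [Finset.sum_empty]
    have h1 : J g (fun _ : X => (0 : ℝ)) = J g (fun _ : X => (0 : ℝ) * 0) :=
      J_congr fun x => by ring
    rw [h1, J_const_mul, zero_mul]
  | insert a s ha ih =>
    have h1 : J g (fun x => ∑ i ∈ insert a s, f i x) = J g (fun x => f a x + ∑ i ∈ s, f i x) :=
      J_congr fun x => Finset.sum_insert ha
    rw [h1, J_add hg (hc a) (continuous_finsetSum s fun i _ => hc i), ih, Finset.sum_insert ha]

section

variable (hg : IsHermitian g) (hχ : IsKahler χ) (hφ : IsCanonicalMetric φ)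
  (hρ : SmoothFn (n := n) ρ) (h0 : ∀ x, 0 ≤ ρ x) (hr : ∀ i, SmoothFn (n := n) (r i))
  (hr0 : ∀ i x, 0 ≤ r i x) (hR : ∀ i, IsClosedForm (R i)) {δ ε : ℝ} (hδ : 0 < δ) (hε : 0 < ε)
  {b : X → ℝ} (hb : Continuous b)

include hg in
lemma cont_trX {B : D.FormM n X} (hB : IsClosedForm B) : Continuous (trX g B) :=
  sm_continuous (smoothFn_trX hg hB.form hB.smooth)

omit [IsManifold 𝓘(ℂ, Cm n) ω X] in
lemma cont_quot {f : X → ℝ} (hf : Continuous f) (hf0 : ∀ x, 0 ≤ f x) {δ : ℝ} (hδ : 0 < δ) :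
    Continuous fun x => δ / (f x + δ) :=
  continuous_const.div (hf.add continuous_const) fun x => by
    have := hf0 x
    have h : 0 < f x + δ := by linarith
    exact h.ne'

include hg hχ hφ hρ h0 hr hr0 hR hδ hε hb in
lemma cont_tauK (C C' C₂ : ℝ) (μ : ℕ) (K : Fin M → ℕ) :
    Continuous (tauK χ g φ m ρ dl r R C C' C₂ μ K b δ ε) := by
  have cρ := sm_continuous hρ
  have cχ := cont_trX hg (INT.IsKahler.isClosedForm hχ)
  have c1 := cont_trX hg (isClosed_curvK (m := m) (dl := dl) hφ hρ h0 hδ hR)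
  have c2 : ∀ i, Continuous fun x => ε / (r i x + ε) * trX g χ x := fun i =>
    (cont_quot (sm_continuous (hr i)) (hr0 i) hε).mul cχ
  have c3 : ∀ i, Continuous fun x => if K i = 0 then 0 else
      (K i : ℝ) * (trX g (dF (r i) (R i) ε) x + C₂ * trX g χ x) := by
    intro i
    split_ifs with h
    · exact continuous_const
    · exact continuous_const.mul ((cont_trX hg (isClosed_dF (hr i) (hr0 i) hε (hR i))).add
        (continuous_const.mul cχ))
  unfold tauK
  refine ((continuous_const.mul (c1.add ((continuous_const.mul (cont_quot cρ h0 hδ)).mul cχ))).add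
    (continuous_const.mul (continuous_finsetSum _ fun i _ => c2 i))).add
    (hb.mul (continuous_finsetSum _ fun i _ => c3 i))

include hg hχ in
lemma trX_chi_nonneg (x : X) : 0 ≤ trX g χ x :=
  trX_nonneg_of hg (hχ.posDef _ x (at_chartAt x)).posSemidef

include hg hχ hφ hρ h0 hδ hR in
lemma tau1_nonneg {C : ℝ} (hC : CurvKGe φ m ρ dl R C χ) (x : X) :
    0 ≤ trX g (curvK φ m ρ δ dl R) x + C * (δ / (ρ x + δ)) * trX g χ x := by
  have hx := at_chartAt (n := n) x
  have h1 := hC δ hδ _ x hx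
  have h2 : trX g (curvK φ m ρ δ dl R) x + C * (δ / (ρ x + δ)) * trX g χ x =
      ((g (chartAt (Cm n) x) (chartAt (Cm n) x x))⁻¹ *
        (curvK φ m ρ δ dl R (chartAt (Cm n) x) (chartAt (Cm n) x x) +
          ((C * (δ / (ρ x + δ)) : ℝ) : ℂ) • χ (chartAt (Cm n) x) (chartAt (Cm n) x x))).trace.re := by
    rw [tr_add, tr_smul]
    rfl
  rw [h2]
  exact (Complex.le_def.1 (C2.trace_mul_nonneg (hg.posDef _ x hx).inv.posSemidef h1)).1

include hg hχ in
lemma tau3_nonneg {r : X → ℝ} {R : D.FormM n X} {C₂ : ℝ} {x : X}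
    (hd : (dF r R ε (chartAt (Cm n) x) (chartAt (Cm n) x x) +
      (C₂ : ℂ) • χ (chartAt (Cm n) x) (chartAt (Cm n) x x)).PosSemidef) :
    0 ≤ trX g (dF r R ε) x + C₂ * trX g χ x := by
  have hx := at_chartAt (n := n) x
  have h2 : trX g (dF r R ε) x + C₂ * trX g χ x =
      ((g (chartAt (Cm n) x) (chartAt (Cm n) x x))⁻¹ *
        (dF r R ε (chartAt (Cm n) x) (chartAt (Cm n) x x) +
          (C₂ : ℂ) • χ (chartAt (Cm n) x) (chartAt (Cm n) x x))).trace.re := by
    rw [tr_add, tr_smul]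
    rfl
  rw [h2]
  exact (Complex.le_def.1 (C2.trace_mul_nonneg (hg.posDef _ x hx).inv.posSemidef hd)).1

include hg hχ hφ hρ h0 hr0 hR hδ hε in
lemma tauK_nonneg {C C' C₂ : ℝ} (hC : CurvKGe φ m ρ dl R C χ) (hC' : 0 ≤ C')
    (hd : ∀ i x, (dF (r i) (R i) ε (chartAt (Cm n) x) (chartAt (Cm n) x x) +
      (C₂ : ℂ) • χ (chartAt (Cm n) x) (chartAt (Cm n) x x)).PosSemidef)
    (hb0 : ∀ x, 0 ≤ b x) (μ : ℕ) (K : Fin M → ℕ) (x : X) :
    0 ≤ tauK χ g φ m ρ dl r R C C' C₂ μ K b δ ε x := by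
  have h1 := tau1_nonneg hg hχ hφ hρ h0 hR hδ hC x
  have h2 := trX_chi_nonneg hg hχ x
  have h3 : ∀ i, 0 ≤ ε / (r i x + ε) * trX g χ x := fun i => by
    have := hr0 i x
    positivity
  have h4 : ∀ i, 0 ≤ if K i = 0 then 0 else
      (K i : ℝ) * (trX g (dF (r i) (R i) ε) x + C₂ * trX g χ x) := by
    intro i
    split_ifs with h
    · exact le_rfl
    · exact mul_nonneg (Nat.cast_nonneg _) (tau3_nonneg hg hχ (hd i x))
  unfold tauK
  exact add_nonneg (add_nonneg (mul_nonneg (Nat.cast_nonneg _) h1)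
    (mul_nonneg hC' (Finset.sum_nonneg fun i _ => h3 i)))
    (mul_nonneg (hb0 x) (Finset.sum_nonneg fun i _ => h4 i))

end

lemma tauK_mono {C C' C₂ C₂' : ℝ} (hg : IsHermitian g) (hχ : IsKahler χ) (hC : C₂ ≤ C₂')
    {b : X → ℝ} (hb0 : ∀ x, 0 ≤ b x) (μ : ℕ) (K : Fin M → ℕ) (δ ε : ℝ) (x : X) :
    tauK χ g φ m ρ dl r R C C' C₂ μ K b δ ε x ≤ tauK χ g φ m ρ dl r R C C' C₂' μ K b δ ε x := by
  have h2 := trX_chi_nonneg hg hχ x
  unfold tauK
  refine add_le_add le_rfl (mul_le_mul_of_nonneg_left ?_ (hb0 x))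
  refine Finset.sum_le_sum fun i _ => ?_
  split_ifs with h
  · exact le_rfl
  · exact mul_le_mul_of_nonneg_left (add_le_add le_rfl (mul_le_mul_of_nonneg_right hC h2))
      (Nat.cast_nonneg _)

lemma J_add4 [T2Space X] [CompactSpace X] (hg : IsHermitian g) {f1 f2 f3 f4 : X → ℝ}
    (d1 : Continuous f1) (d2 : Continuous f2) (d3 : Continuous f3) (d4 : Continuous f4) :
    J g (fun x => f1 x + (f2 x + (f3 x + f4 x))) = J g f1 + (J g f2 + (J g f3 + J g f4)) := by
  have e3 : Continuous fun x => f3 x + f4 x := d3.add d4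
  have e2 : Continuous fun x => f2 x + (f3 x + f4 x) := d2.add e3
  rw [J_add hg d1 e2, J_add hg d2 e3, J_add hg d3 d4]

/-- the total curvature -/
lemma J_tauK_le [T2Space X] [CompactSpace X] (coh : CohPart) (hχ : IsKahler χ)
    (hφ : IsCanonicalMetric φ) (hρ : SmoothFn (n := n) ρ) (h0 : ∀ x, 0 ≤ ρ x)
    (hr : ∀ i, SmoothFn (n := n) (r i)) (hr0 : ∀ i x, 0 ≤ r i x) (hR : ∀ i, IsClosedForm (R i))
    (hθ : IsClosedForm θ) (hβ : IsClosedForm β)
    (hθ0 : ∀ e x, At e x → (θ e (e x)).PosSemidef) (hβ0 : ∀ e x, At e x → (β e (e x)).PosSemidef)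
    {s t : ℝ} (hs : 0 ≤ s) (ht : 0 < t) {δ ε : ℝ} (hδ : 0 < δ) (hε : 0 < ε)
    {U : X → ℝ} (hU : SmoothFn (n := n) U) (hg : IsKahler (addH (addF (addF β s θ) t χ) U))
    {b : X → ℝ} (hb : Continuous b) (hb0 : ∀ x, 0 ≤ b x) {C C' C₂ κ₁ κ₂ : ℝ} (hC : 0 ≤ C)
    (hC' : 0 ≤ C') (hC₂ : 0 ≤ C₂) (μ : ℕ) (K : Fin M → ℕ)
    (E1 : J (addH (addF (addF β s θ) t χ) U) (fun x => δ / (ρ x + δ) *
      trX (addH (addF (addF β s θ) t χ) U) (addF (addF β s θ) t χ) x) ≤ κ₁)
    (E2 : ∀ i, J (addH (addF (addF β s θ) t χ) U) (fun x => ε / (r i x + ε) *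
      trX (addH (addF (addF β s θ) t χ) U) (addF (addF β s θ) t χ) x) ≤ κ₂)
    (E3 : ∀ i, K i ≠ 0 → J (addH (addF (addF β s θ) t χ) U) (fun x => b x *
      (trX (addH (addF (addF β s θ) t χ) U) (dF (r i) (R i) ε) x + C₂ / t *
      trX (addH (addF (addF β s θ) t χ) U) (addF (addF β s θ) t χ) x)) ≤ κ₁) :
    J (addH (addF (addF β s θ) t χ) U)
      (tauK χ (addH (addF (addF β s θ) t χ) U) φ m ρ dl r R C C' C₂ μ K b δ ε) ≤
      μ * mixX (addF (addF β s θ) t χ) (clsK φ dl R) + μ * C * t⁻¹ * κ₁ + C' * t⁻¹ * (M * κ₂) +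
        (∑ i, (K i : ℝ)) * κ₁ := by
  set G : D.FormM n X := addF (addF β s θ) t χ with hGdef
  set g : D.FormM n X := addH G U with hgdef
  have hG : IsKahler G := isKahler_G hχ hθ hβ hθ0 hβ0 hs ht
  have hgH := hg.toIsHermitian
  have cρ := sm_continuous hρ
  have cG := cont_trX hgH (INT.IsKahler.isClosedForm hG)
  have cχ := cont_trX hgH (INT.IsKahler.isClosedForm hχ)
  have c1 := cont_trX hgH (isClosed_curvK (m := m) (dl := dl) hφ hρ h0 hδ hR)
  have cq1 := (cont_quot cρ h0 hδ).mul cG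
  have cq2 : ∀ i, Continuous fun x => ε / (r i x + ε) * trX g G x := fun i =>
    (cont_quot (sm_continuous (hr i)) (hr0 i) hε).mul cG
  have cq3 : ∀ i, Continuous fun x => b x * (trX g (dF (r i) (R i) ε) x + C₂ / t * trX g G x) :=
    fun i => hb.mul ((cont_trX hgH (isClosed_dF (hr i) (hr0 i) hε (hR i))).add
        (continuous_const.mul cG))
  have cq3' : ∀ i, Continuous fun x => if K i = 0 then 0 else
      (K i : ℝ) * (b x * (trX g (dF (r i) (R i) ε) x + C₂ / t * trX g G x)) := by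
    intro i
    split_ifs with h
    · exact continuous_const
    · exact continuous_const.mul (cq3 i)
  have hle : ∀ x, trX g χ x ≤ t⁻¹ * trX g G x := by
    intro x
    have h1 := (trX_chi_le hgH hχ hθ hβ hθ0 hβ0 hs ht x).1
    rw [inv_mul_eq_div, le_div_iff₀ ht, mul_comm]
    exact h1
  -- the pointwise bound
  have hpt : ∀ x, tauK χ g φ m ρ dl r R C C' C₂ μ K b δ ε x ≤
      μ * trX g (curvK φ m ρ δ dl R) x + (μ * C * t⁻¹ * (δ / (ρ x + δ) * trX g G x) +
        (C' * t⁻¹ * (∑ i, ε / (r i x + ε) * trX g G x) + ∑ i, if K i = 0 then 0 else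
          (K i : ℝ) * (b x * (trX g (dF (r i) (R i) ε) x + C₂ / t * trX g G x)))) := by
    intro x
    have h1 := hle x
    have h2 : 0 ≤ δ / (ρ x + δ) := by have := h0 x; positivity
    have a1 : (μ : ℝ) * (C * (δ / (ρ x + δ)) * trX g χ x) ≤
        μ * C * t⁻¹ * (δ / (ρ x + δ) * trX g G x) := by
      have := mul_le_mul_of_nonneg_left h1 (by positivity : 0 ≤ (μ : ℝ) * (C * (δ / (ρ x + δ))))
      calc (μ : ℝ) * (C * (δ / (ρ x + δ)) * trX g χ x) =
            (μ : ℝ) * (C * (δ / (ρ x + δ))) * trX g χ x := by ring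
        _ ≤ _ := this
        _ = _ := by ring
    have a2 : C' * ∑ i, ε / (r i x + ε) * trX g χ x ≤
        C' * t⁻¹ * (∑ i, ε / (r i x + ε) * trX g G x) := by
      rw [mul_assoc, Finset.mul_sum (a := t⁻¹)]
      refine mul_le_mul_of_nonneg_left (Finset.sum_le_sum fun i _ => ?_) hC'
      have h3 : 0 ≤ ε / (r i x + ε) := by have := hr0 i x; positivity
      calc ε / (r i x + ε) * trX g χ x ≤ ε / (r i x + ε) * (t⁻¹ * trX g G x) :=
            mul_le_mul_of_nonneg_left h1 h3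
        _ = _ := by ring
    have a3 : b x * (∑ i, if K i = 0 then 0 else
          (K i : ℝ) * (trX g (dF (r i) (R i) ε) x + C₂ * trX g χ x)) ≤
        ∑ i, if K i = 0 then 0 else
          (K i : ℝ) * (b x * (trX g (dF (r i) (R i) ε) x + C₂ / t * trX g G x)) := by
      rw [Finset.mul_sum]
      refine Finset.sum_le_sum fun i _ => ?_
      split_ifs with h
      · rw [mul_zero]
      · have h3 : C₂ * trX g χ x ≤ C₂ / t * trX g G x := by
          have := mul_le_mul_of_nonneg_left h1 hC₂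
          calc C₂ * trX g χ x ≤ C₂ * (t⁻¹ * trX g G x) := this
            _ = _ := by ring
        calc b x * ((K i : ℝ) * (trX g (dF (r i) (R i) ε) x + C₂ * trX g χ x)) =
              (K i : ℝ) * (b x * (trX g (dF (r i) (R i) ε) x + C₂ * trX g χ x)) := by ring
          _ ≤ _ := mul_le_mul_of_nonneg_left (mul_le_mul_of_nonneg_left
              (add_le_add le_rfl h3) (hb0 x)) (Nat.cast_nonneg _)
    unfold tauK
    rw [mul_add]
    linarith
  have cT : Continuous (tauK χ g φ m ρ dl r R C C' C₂ μ K b δ ε) :=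
    cont_tauK hgH hχ hφ hρ h0 hr hr0 hR hδ hε hb C C' C₂ μ K
  have d1 : Continuous fun x => (μ : ℝ) * trX g (curvK φ m ρ δ dl R) x := continuous_const.mul c1
  have d2 : Continuous fun x => (μ : ℝ) * C * t⁻¹ * (δ / (ρ x + δ) * trX g G x) :=
    continuous_const.mul cq1
  have d3 : Continuous fun x => C' * t⁻¹ * (∑ i, ε / (r i x + ε) * trX g G x) :=
    continuous_const.mul (continuous_finsetSum _ fun i _ => cq2 i)
  have d4 : Continuous fun x => ∑ i, if K i = 0 then 0 else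
      (K i : ℝ) * (b x * (trX g (dF (r i) (R i) ε) x + C₂ / t * trX g G x)) :=
    continuous_finsetSum _ fun i _ => cq3' i
  have d5 : Continuous fun x => (μ : ℝ) * trX g (curvK φ m ρ δ dl R) x +
      (μ * C * t⁻¹ * (δ / (ρ x + δ) * trX g G x) +
        (C' * t⁻¹ * (∑ i, ε / (r i x + ε) * trX g G x) + ∑ i, if K i = 0 then 0 else
          (K i : ℝ) * (b x * (trX g (dF (r i) (R i) ε) x + C₂ / t * trX g G x)))) :=
    d1.add (d2.add (d3.add d4))
  refine (J_mono hgH cT d5 hpt).trans ?_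
  rw [J_add4 hgH d1 d2 d3 d4, J_const_mul,
    J_const_mul, J_const_mul, J_sum hgH _ _ cq2, J_sum hgH _ _ cq3']
  have f1 : J g (trX g (curvK φ m ρ δ dl R)) = mixX G (clsK φ dl R) := by
    rw [J_trX hgH (isClosed_curvK (m := m) (dl := dl) hφ hρ h0 hδ hR).form,
      mixX_curvK coh hφ hρ h0 hδ hR (INT.IsKahler.isClosedForm hG) hU]
  have f2 : ∑ i, J g (fun x => ε / (r i x + ε) * trX g G x) ≤ M * κ₂ := by
    calc ∑ i, J g (fun x => ε / (r i x + ε) * trX g G x) ≤ ∑ _i : Fin M, κ₂ :=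
          Finset.sum_le_sum fun i _ => E2 i
      _ = M * κ₂ := by simp
  have f3 : ∑ i, J g (fun x => if K i = 0 then 0 else
      (K i : ℝ) * (b x * (trX g (dF (r i) (R i) ε) x + C₂ / t * trX g G x))) ≤
      (∑ i, (K i : ℝ)) * κ₁ := by
    rw [Finset.sum_mul]
    refine Finset.sum_le_sum fun i _ => ?_
    by_cases h : K i = 0
    · have h1 : J g (fun x : X => if K i = 0 then 0 else
          (K i : ℝ) * (b x * (trX g (dF (r i) (R i) ε) x + C₂ / t * trX g G x))) =
          J g (fun _ : X => (0 : ℝ) * 0) := J_congr fun x => by rw [if_pos h, zero_mul]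
      rw [h1, J_const_mul, zero_mul, h, Nat.cast_zero, zero_mul]
    · have h1 : J g (fun x : X => if K i = 0 then 0 else
          (K i : ℝ) * (b x * (trX g (dF (r i) (R i) ε) x + C₂ / t * trX g G x))) =
          J g (fun x : X => (K i : ℝ) * (b x * (trX g (dF (r i) (R i) ε) x +
            C₂ / t * trX g G x))) := J_congr fun x => by rw [if_neg h]
      rw [h1, J_const_mul]
      exact mul_le_mul_of_nonneg_left (E3 i h) (Nat.cast_nonneg _)
  rw [f1]
  have g1 := mul_le_mul_of_nonneg_left E1 (by positivity : 0 ≤ (μ : ℝ) * C * t⁻¹)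
  have g2 := mul_le_mul_of_nonneg_left f2 (by positivity : 0 ≤ C' * t⁻¹)
  linarith

end Vale.Agent.P281.H156.KD
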