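import Vale.Agent.P281.H156.KD.Est

/-! P281, theorem KD: the forms of block CORE and the function `τ`. -/

open scoped Manifold ContDiff ComplexOrder Topology
open Complex Set Filter MeasureTheory

set_option linter.all false

noncomputable section

namespace Vale.Agent.P281.H156.KD

open Vale.Agent.P272.K Vale.Agent.P272.K.AMP Vale.Agent.P299.D Vale.Agent.P299 Vale.Agent.P299.H882
open Vale.Agent.P281.H167.SA Vale.Agent.P281.H167.GM Vale.Agent.P281.H713.KD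
open INT (IsDensity intX IsClosedForm)

variable {n M : ℕ} {X : Type} [TopologicalSpace X] [ChartedSpace (Cm n) X]
  [IsManifold 𝓘(ℂ, Cm n) ω X]
  {w χ θ β G g : D.FormM n X} {φ : Chart n X → Cm n → ℝ} {m : ℕ} {ρ : X → ℝ}
  {Dv : Fin M → Set X} {r : Fin M → X → ℝ} {R : Fin M → D.FormM n X} {dl : Fin M → ℝ}

lemma isClosed_zero : IsClosedForm (n := n) (X := X) fun e z => 0 where
  smooth e x h i j := contDiffAt_const
  form := by
    intro e e' x hx hx'
    simp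
  closed e x h i k l := by
    simp only [Matrix.zero_apply]
    rw [dz_const, dz_const]

lemma isClosed_sumR (hR : ∀ i, IsClosedForm (R i)) (dl : Fin M → ℝ) :
    IsClosedForm fun (e : Chart n X) z => ∑ i, ((dl i : ℝ) : ℂ) • R i e z := by
  have key : ∀ s : Finset (Fin M),
      IsClosedForm fun (e : Chart n X) z => ∑ i ∈ s, ((dl i : ℝ) : ℂ) • R i e z := by
    intro s
    induction s using Finset.induction_on with
    | empty => simpa using (isClosed_zero (n := n) (X := X))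
    | insert a s ha ih =>
      have h1 := ((hR a).smul ((dl a : ℝ) : ℂ)).add ih
      have h2 : (fun (e : Chart n X) z => ∑ i ∈ insert a s, ((dl i : ℝ) : ℂ) • R i e z) =
          fun (e : Chart n X) z => ((dl a : ℝ) : ℂ) • R a e z +
            ∑ i ∈ s, ((dl i : ℝ) : ℂ) • R i e z := by
        funext e z
        rw [Finset.sum_insert ha]
      rw [h2]
      exact h1
  exact key Finset.univ

lemma isClosed_clsK (hφ : IsCanonicalMetric φ) (hR : ∀ i, IsClosedForm (R i)) :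
    IsClosedForm (clsK φ dl R) := (INT.isClosedForm_canonical hφ).add (isClosed_sumR hR dl)

lemma isClosed_curvK (hφ : IsCanonicalMetric φ) (hρ : SmoothFn (n := n) ρ) (h0 : ∀ x, 0 ≤ ρ x)
    {δ : ℝ} (hδ : 0 < δ) (hR : ∀ i, IsClosedForm (R i)) :
    IsClosedForm (curvK φ m ρ δ dl R) :=
  (INT.isClosedForm_canonical (isCanonical_phiD (m := m) hφ hρ h0 hδ)).add (isClosed_sumR hR dl)

lemma IsBd.nonneg (hb : IsBd Dv r R) (i : Fin M) (x : X) : 0 ≤ r i x := by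
  have hx := at_chartAt (n := n) x
  obtain ⟨g, ψ, -, -, -, -, h⟩ := hb.loc _ x hx
  have := (h.self_of_nhds i).1
  rw [hx.left_inv] at this
  rw [this]
  positivity

lemma smooth_logr {r : X → ℝ} (hr : SmoothFn (n := n) r) (h0 : ∀ x, 0 ≤ r x) {ε : ℝ} (hε : 0 < ε) :
    SmoothFn (n := n) (fun x => Real.log (r x + ε)) := by
  intro e x hx
  refine ((hr e x hx).add contDiffAt_const).log ?_
  rw [hx.left_inv]
  have := h0 x
  linarith

lemma isClosed_dF {r : X → ℝ} {R : D.FormM n X} (hr : SmoothFn (n := n) r) (h0 : ∀ x, 0 ≤ r x)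
    {ε : ℝ} (hε : 0 < ε) (hR : IsClosedForm R) : IsClosedForm (dF r R ε) :=
  (INT.isClosedForm_cHess (smooth_logr hr h0 hε)).add hR

/-- the density -/
def Lk (m : ℕ) (ρ : X → ℝ) (δ : ℝ) (dl : Fin M → ℝ) (r : Fin M → X → ℝ) (ε : ℝ) (x : X) : ℝ :=
  (m : ℝ)⁻¹ * Real.log (ρ x + δ) - ∑ i, dl i * Real.log (r i x + ε)

lemma smooth_Lk (hρ : SmoothFn (n := n) ρ) (h0 : ∀ x, 0 ≤ ρ x) {δ ε : ℝ} (hδ : 0 < δ) (hε : 0 < ε)
    (hr : ∀ i, SmoothFn (n := n) (r i)) (hr0 : ∀ i x, 0 ≤ r i x) :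
    SmoothFn (n := n) (Lk m ρ δ dl r ε) := by
  intro e x hx
  have h1 := smooth_logR hρ h0 m hδ e x hx
  have h2 : ContDiffAt ℝ ∞ (fun z => ∑ i, dl i * Real.log (r i (e.symm z) + ε)) (e x) :=
    ContDiffAt.sum fun i _ => contDiffAt_const.mul (smooth_logr (hr i) (hr0 i) hε e x hx)
  exact h1.sub h2

lemma phiK_eq (φ : Chart n X → Cm n → ℝ) (m : ℕ) (ρ : X → ℝ) (δ : ℝ) (dl : Fin M → ℝ)
    (r : Fin M → X → ℝ) (ε : ℝ) (e : Chart n X) (z : Cm n) :
    phiK φ m ρ δ dl r ε e z = φ e z + Lk m ρ δ dl r ε (e.symm z) := by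
  simp only [phiK, phiD, Lk]
  ring

lemma isCanonical_add (hφ : IsCanonicalMetric φ) {L : X → ℝ} (hL : SmoothFn (n := n) L) :
    IsCanonicalMetric (fun (e : Chart n X) z => φ e z + L (e.symm z)) where
  smooth e x hx := (hφ.smooth e x hx).add (hL e x hx)
  change e e' x hx hx' := by
    rw [hφ.change e e' x hx hx', hx.left_inv, hx'.left_inv]
    ring

lemma isCanonical_phiK (hφ : IsCanonicalMetric φ) (hρ : SmoothFn (n := n) ρ) (h0 : ∀ x, 0 ≤ ρ x)
    {δ ε : ℝ} (hδ : 0 < δ) (hε : 0 < ε) (hr : ∀ i, SmoothFn (n := n) (r i))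
    (hr0 : ∀ i x, 0 ≤ r i x) : IsCanonicalMetric (phiK φ m ρ δ dl r ε) := by
  have h1 := isCanonical_add hφ (smooth_Lk (m := m) (dl := dl) hρ h0 hδ hε hr hr0)
  have h2 : phiK φ m ρ δ dl r ε = fun (e : Chart n X) z => φ e z + Lk m ρ δ dl r ε (e.symm z) := by
    funext e z
    exact phiK_eq φ m ρ δ dl r ε e z
  rw [h2]
  exact h1

lemma trX_add2 (g A B : D.FormM n X) (x : X) :
    trX g (fun e z => A e z + B e z) x = trX g A x + trX g B x := by
  unfold trX atX trE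
  rw [tr_add]

lemma trX_smul2 (g A : D.FormM n X) (a : ℝ) (x : X) :
    trX g (fun e z => (a : ℂ) • A e z) x = a * trX g A x := by
  unfold trX atX trE
  rw [tr_smul]

lemma trX_nonneg_of {g B : D.FormM n X} (hg : IsHermitian g) {x : X}
    (hB : (B (chartAt (Cm n) x) (chartAt (Cm n) x x)).PosSemidef) : 0 ≤ trX g B x := by
  have hx := at_chartAt (n := n) x
  unfold trX atX trE
  exact (Complex.le_def.1 (C2.trace_mul_nonneg (hg.posDef _ x hx).inv.posSemidef hB)).1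

lemma BochF.mono {τ τ' S : X → ℝ} (h : BochF g τ S) (hle : ∀ x, τ x ≤ τ' x) : BochF g τ' S := by
  intro x
  have h1 := h x
  have h2 := mul_le_mul_of_nonneg_right (hle x) (sq_nonneg (S x))
  linarith

lemma CurvKGe.mono {C C' : ℝ} (h0 : ∀ x, 0 ≤ ρ x) (hC : CurvKGe φ m ρ dl R C χ) (hCC : C ≤ C')
    (hχ : ∀ e x, At e x → (χ e (e x)).PosSemidef) : CurvKGe φ m ρ dl R C' χ := by
  intro δ hδ e x hx
  have h1 := hC δ hδ e x hx
  have h2 : 0 ≤ (C' - C) * (δ / (ρ x + δ)) := by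
    have := h0 x
    exact mul_nonneg (by linarith) (by positivity)
  have h3 := h1.add (psd_real_smul (hχ e x hx) h2)
  have e1 : curvK φ m ρ δ dl R e (e x) + ((C' * (δ / (ρ x + δ)) : ℝ) : ℂ) • χ e (e x) =
      curvK φ m ρ δ dl R e (e x) + ((C * (δ / (ρ x + δ)) : ℝ) : ℂ) • χ e (e x) +
        (((C' - C) * (δ / (ρ x + δ)) : ℝ) : ℂ) • χ e (e x) := by
    rw [add_assoc, ← add_smul]
    congr 2
    push_cast
    ring
  rw [e1]
  exact h3

lemma CurvKGe.toG {C : ℝ} (h0 : ∀ x, 0 ≤ ρ x) (hC0 : 0 ≤ C) (hC : CurvKGe φ m ρ dl R C χ)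
    (hθ0 : ∀ e x, At e x → (θ e (e x)).PosSemidef) (hβ0 : ∀ e x, At e x → (β e (e x)).PosSemidef)
    {s t : ℝ} (hs : 0 ≤ s) (ht : 0 < t) :
    CurvKGe φ m ρ dl R (C / t) (addF (addF β s θ) t χ) := by
  intro δ hδ e x hx
  have h1 := hC δ hδ e x hx
  have h2 : 0 ≤ C / t * (δ / (ρ x + δ)) := by
    have := h0 x
    positivity
  have h3 : (addF β s θ e (e x)).PosSemidef := (hβ0 e x hx).add (psd_real_smul (hθ0 e x hx) hs)
  have h4 := h1.add (psd_real_smul h3 h2)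
  have e1 : curvK φ m ρ δ dl R e (e x) +
      ((C / t * (δ / (ρ x + δ)) : ℝ) : ℂ) • addF (addF β s θ) t χ e (e x) =
      curvK φ m ρ δ dl R e (e x) + ((C * (δ / (ρ x + δ)) : ℝ) : ℂ) • χ e (e x) +
        ((C / t * (δ / (ρ x + δ)) : ℝ) : ℂ) • addF β s θ e (e x) := by
    rw [show addF (addF β s θ) t χ e (e x) = addF β s θ e (e x) + (t : ℂ) • χ e (e x) from rfl,
      smul_add, smul_smul]
    have : ((C / t * (δ / (ρ x + δ)) : ℝ) : ℂ) * (t : ℂ) = ((C * (δ / (ρ x + δ)) : ℝ) : ℂ) := by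
      rw [← Complex.ofReal_mul]
      congr 1
      field_simp
    rw [this]
    abel
  rw [e1]
  exact h4

/-- the class of `curvK` -/
lemma mixX_curvK [T2Space X] [CompactSpace X] (coh : CohPart) (hφ : IsCanonicalMetric φ)
    (hρ : SmoothFn (n := n) ρ)
    (h0 : ∀ x, 0 ≤ ρ x) {δ : ℝ} (hδ : 0 < δ) (hR : ∀ i, IsClosedForm (R i)) (hG : IsClosedForm G)
    {U : X → ℝ} (hU : SmoothFn (n := n) U) :
    mixX (addH G U) (curvK φ m ρ δ dl R) = mixX G (clsK φ dl R) := by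
  rw [← coh n X G (clsK φ dl R) hG (isClosed_clsK hφ hR) U
    (fun x => (m : ℝ)⁻¹ * Real.log (ρ x + δ)) hU (smooth_logR hρ h0 m hδ)]
  refine mixX_congr (fun e x hx => rfl) fun e x hx => ?_
  have h1 := cHess_phiD (m := m) hφ hρ h0 hδ hx
  have h2 : addH (cF φ) (fun x => (m : ℝ)⁻¹ * Real.log (ρ x + δ)) e (e x) = cHess (φ e) (e x) +
      cHess (fun y => (m : ℝ)⁻¹ * Real.log (ρ (e.symm y) + δ)) (e x) := rfl
  have h3 : addH (clsK φ dl R) (fun x => (m : ℝ)⁻¹ * Real.log (ρ x + δ)) e (e x) =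
      cHess (φ e) (e x) + (∑ i, ((dl i : ℝ) : ℂ) • R i e (e x)) +
      cHess (fun y => (m : ℝ)⁻¹ * Real.log (ρ (e.symm y) + δ)) (e x) := rfl
  have h4 : curvK φ m ρ δ dl R e (e x) = cHess (phiD φ m ρ δ e) (e x) +
      ∑ i, ((dl i : ℝ) : ℂ) • R i e (e x) := rfl
  rw [h3, h4, h1, h2]
  abel

end Vale.Agent.P281.H156.KD
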